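import Vale.Agent.P167.H662.S6.Fin
import Vale.Agent.P167.H199.QOm

/-!
# P167, general `q`, block Q-START: `H6S` from `L2S` and `M2F`
-/

namespace Vale.Agent.P167.H662.S6

open Finset MeasureTheory Filter
open Vale.Agent.P167.FK
open Vale.Agent.P167.FKA (Loc Ind ArmDec cf_out)
open Vale.Agent.P167.E6 (IsPolygon Encloses face)
open Vale.Agent.P167.H825 (dv enl Marks FlowIn)
open Vale.Agent.P167.H825.Q (Row Bc VT VT_eq)
open Vale.Agent.P167.H680.T (rowC uI frows mem_uI)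
open Vale.Agent.P167.H199 (Gap exists_Gap)
open Vale.Agent.P167.H662 (hsite)
open Vale.Agent.P167.H519 (IsLim cf_in)
open Vale.Agent.P167.Enl (tB qN tB_lt frmQ uI_frows BGap exists_BGap)
open Vale.Agent.P167.H506.Q (EF EF_mono EF_nonneg)
open Vale.Agent.P167.H398.Q

variable {θ β : ℝ} {P : Measure Cfg} {α C : ℝ}

/-- Numbers. -/
theorem fin_num {M ε η e : ℝ} (hM : 1 ≤ M) (hε : 0 < ε) (hη : 0 ≤ η) (hη1 : η ≤ 1)
    (hη2 : η ≤ ε / (32 * M)) (he : 0 ≤ e) (he1 : er M e ≤ min 1 (ε / 4)) :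
    (2 * η * (M + er M e) + er M e) * (1 + η) ≤ ε ∧ (1 + η) ^ 2 * (M + er M e) ≤ 8 * M := by
  have hM0 : 0 < M := by linarith
  have h1 := er_nonneg hM0.le he
  have h2 := he1.trans (min_le_left _ _)
  have h3 := he1.trans (min_le_right _ _)
  have h4 : η * M ≤ ε / 32 := by
    have := mul_le_mul_of_nonneg_right hη2 hM0.le
    calc η * M ≤ ε / (32 * M) * M := this
      _ = ε / 32 := by field_simp
  have h5 : η * er M e ≤ η * M := mul_le_mul_of_nonneg_left (h2.trans hM) hη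
  have h6 : 2 * η * (M + er M e) + er M e ≤ ε / 8 + ε / 4 := by nlinarith
  have h7 : 0 ≤ 2 * η * (M + er M e) + er M e := by positivity
  constructor
  · calc (2 * η * (M + er M e) + er M e) * (1 + η)
        ≤ (ε / 8 + ε / 4) * (1 + 1) := mul_le_mul h6 (by linarith) (by linarith) (by linarith)
      _ ≤ ε := by linarith
  · have h8 : (1 + η) ^ 2 ≤ 4 := by nlinarith
    calc (1 + η) ^ 2 * (M + er M e) ≤ 4 * (M + M) :=
          mul_le_mul h8 (by linarith) (by linarith) (by norm_num)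
      _ = 8 * M := by ring

/-- **(H6S) The closed frame.** -/
theorem h6s (h0 : 0 < θ) (h1 : θ ≤ Real.pi / 3) (hβ : Real.cos (θ / 2 + β) = Real.sin θ)
    (hP : IsLim (2 * Real.cos θ) P) (hgd : ∀ᵐ ω ∂P, Good ω) (hα : 0 < α) (hC0 : 0 ≤ C)
    (harm : ArmDec (2 * Real.cos θ) α C) (hL2 : L2S θ β) (hM2 : M2F θ β) : H6S θ β P := by
  intro l _ p S₀ hp hD Q hQ bc hb κ B hκ
  obtain ⟨κL, hκL, hL⟩ := hL2 l p S₀ hp hD Q hQ bc hb
  obtain ⟨A, δL, -, hδL, hL⟩ := hL (κL / 2) (by positivity) (by linarith)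
  obtain ⟨g₁, hg₁, hG₁⟩ := exists_Gap hQ l
  obtain ⟨g₂, hg₂, hG₂⟩ := exists_BGap hb
  obtain ⟨M0, hM0⟩ := hM2 l p S₀ hp hD Q hQ bc hb κ B hκ
  obtain ⟨g, hg⟩ : ∃ g, g = min g₁ g₂ := ⟨_, rfl⟩
  have hg0 : 0 < g := by rw [hg]; exact lt_min hg₁ hg₂
  have hG : Gap Q l g := hG₁.mono (by rw [hg]; exact min_le_left _ _)
  have hBG : BGap l Q g bc := hG₂.mono (by rw [hg]; exact min_le_right _ _)
  obtain ⟨M, hM⟩ : ∃ M, M = max M0 1 := ⟨_, rfl⟩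
  have hM1 : 1 ≤ M := by rw [hM]; exact le_max_right _ _
  have hM0' : M0 ≤ M := by rw [hM]; exact le_max_left _ _
  refine ⟨min (κ / 2) (min κL (g / 8)), 8 * M,
    lt_min (by positivity) (lt_min hκL (by positivity)), by linarith, fun ε hε => ?_⟩
  obtain ⟨ε', hε'⟩ : ∃ ε', ε' = min 1 (ε / 4) := ⟨_, rfl⟩
  have hε'0 : 0 < ε' := by rw [hε']; exact lt_min one_pos (by positivity)
  have hε'1 : ε' ≤ 1 := by rw [hε']; exact min_le_left _ _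
  obtain ⟨e, he⟩ : ∃ e, e = min (1 / 2) (ε' ^ 2 / (64 * M)) := ⟨_, rfl⟩
  have he0 : 0 < e := by rw [he]; exact lt_min (by norm_num) (by positivity)
  have he12 : e ≤ 1 / 2 := by rw [he]; exact min_le_left _ _
  have her : er M e ≤ ε' := er_le hM1 hε'0 hε'1 (by rw [he]; exact min_le_right _ _)
  obtain ⟨N, hN⟩ : ∃ N : ℝ, N = ((univ : Finset (Fin l × Fin (Q.m + 1))).card : ℝ) := ⟨_, rfl⟩
  have hN0 : 0 ≤ N := by rw [hN]; exact Nat.cast_nonneg _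
  obtain ⟨t', ht'0, ht'1, ht'⟩ := rpow_small hα (a := N * C) (by positivity) he0
  obtain ⟨t, ht⟩ : ∃ t, t = min (1 / 4) (t' / 2) := ⟨_, rfl⟩
  have ht0 : 0 < t := by rw [ht]; exact lt_min (by norm_num) (by positivity)
  have ht4 : t ≤ 1 / 4 := by rw [ht]; exact min_le_left _ _
  have htt : 2 * t ≤ t' := by
    have : t ≤ t' / 2 := by rw [ht]; exact min_le_right _ _
    linarith
  refine ⟨t, ht0, by linarith, fun κ₃ κ₄ h3 h34 h4 => ?_⟩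
  obtain ⟨η, hη⟩ : ∃ η, η = min (1 / 2) (ε / (32 * M)) := ⟨_, rfl⟩
  have hη0 : 0 < η := by rw [hη]; exact lt_min (by norm_num) (by positivity)
  have hη1 : η ≤ 1 / 2 := by rw [hη]; exact min_le_left _ _
  have hη2 : η ≤ ε / (32 * M) := by rw [hη]; exact min_le_right _ _
  obtain ⟨t₂, ht₂0, -, ht₂⟩ := rpow_small hα (a := 8 * N * C + C) (by positivity) hη0
  have hκ4 : 0 < κ₄ := (pos_iff_pos_of_mul_pos (lt_of_lt_of_le h3 h34)).1 ht0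
  refine ⟨min δL (min (g / 4) (min (κ₃ / 4) (t₂ * κ₃ / 4))), lt_min hδL (lt_min (by positivity)
    (lt_min (by positivity) (by positivity))), fun δ hδ hδ0 => ?_⟩
  have d1 : δ < δL := hδ0.trans_le (min_le_left _ _)
  have d2 : δ < g / 4 := hδ0.trans_le ((min_le_right _ _).trans (min_le_left _ _))
  have d3 : δ < κ₃ / 4 :=
    hδ0.trans_le ((min_le_right _ _).trans ((min_le_right _ _).trans (min_le_left _ _)))
  have d4 : δ < t₂ * κ₃ / 4 :=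
    hδ0.trans_le ((min_le_right _ _).trans ((min_le_right _ _).trans (min_le_right _ _)))
  filter_upwards [hL δ hδ d1, hM0,
    tendsto_natCast_atTop_atTop.eventually_ge_atTop (16 / δ),
    tendsto_natCast_atTop_atTop.eventually_ge_atTop (2 / t / κ₄)] with n hLn hMn n1 n2 σ hσ
  have n1' : 16 ≤ δ * (n : ℝ) := by
    rw [div_le_iff₀ hδ] at n1
    linarith
  have n2' : 2 / t ≤ κ₄ * (n : ℝ) := by
    rw [div_le_iff₀ hκ4] at n2
    linarith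
  have hn : 0 < n := by
    rcases Nat.eq_zero_or_pos n with h | h
    · rw [h] at n1'; norm_num at n1'
    · exact h
  obtain ⟨f1, f2, f3, f4, f5, f6, f7⟩ := flo (n := n) (κ := κ) (κL := κL) (g := g) (t₂ := t₂)
    ht0 ht4 h3 h34 (h4.trans (min_le_left _ _))
    (h4.trans ((min_le_right _ _).trans (min_le_left _ _)))
    (h4.trans ((min_le_right _ _).trans (min_le_right _ _))) hδ d3.le d4.le n1' n2'
  have hA : HA θ β p Q bc n ⌊δ * (n : ℝ)⌋₊ := fun ω hω hf ℓ hℓ hv =>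
    ((hLn ω hω hf).1 ℓ hℓ hv).1
  have hC : HC θ β p S₀ Q bc n ⌊δ * (n : ℝ)⌋₊ ⌊κ₃ * (n : ℝ)⌋ ⌊κL * (n : ℝ)⌋ :=
    fun ω ω' hω hf hω' hf' hc hc' h => (hLn ω hω hf).2.1 _ ω' f1 hω' hf' hc hc' h
  refine ⟨h6n0 h0 h1 hβ hP hgd hp hD hn f1 hA hσ, fun c hcf hfl => ?_⟩
  have hm : HM θ β p S₀ Q bc n κ B M := fun η hη c hc hf => (hMn η hη c hc hf).trans hM0'
  have hR4 : (0 : ℝ) < ((⌊κ₄ * (n : ℝ)⌋ - 1 : ℤ) : ℝ) := by
    have : 0 < ⌊κ₄ * (n : ℝ)⌋ - 1 := by omega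
    exact_mod_cast this
  have hR3 : (0 : ℝ) < (⌊κ₃ * (n : ℝ)⌋ : ℝ) := by
    have : 0 < ⌊κ₃ * (n : ℝ)⌋ := by omega
    exact_mod_cast this
  have q1 : (univ : Finset (Fin l × Fin (Q.m + 1))).card *
      (C * (((⌊κ₃ * (n : ℝ)⌋ + 1 : ℤ) : ℝ) / ((⌊κ₄ * (n : ℝ)⌋ - 1 : ℤ) : ℝ)) ^ α) ≤ e := by
    rw [← hN, ← mul_assoc]
    refine ht' _ (div_nonneg ?_ hR4.le) (f6.trans htt)
    have : (0 : ℤ) ≤ ⌊κ₃ * (n : ℝ)⌋ + 1 := by omega
    exact_mod_cast this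
  have q2 : (8 * N * C + C) *
      ((((⌊δ * (n : ℝ)⌋₊ : ℤ) + 4 : ℤ) : ℝ) / (⌊κ₃ * (n : ℝ)⌋ : ℝ)) ^ α ≤ η := by
    refine ht₂ _ (div_nonneg ?_ hR3.le) f7
    have : (0 : ℤ) ≤ (⌊δ * (n : ℝ)⌋₊ : ℤ) + 4 := by omega
    exact_mod_cast this
  have q0 : 0 ≤ ((((⌊δ * (n : ℝ)⌋₊ : ℤ) + 4 : ℤ) : ℝ) / (⌊κ₃ * (n : ℝ)⌋ : ℝ)) ^ α := by
    refine Real.rpow_nonneg (div_nonneg ?_ hR3.le) _
    have : (0 : ℤ) ≤ (⌊δ * (n : ℝ)⌋₊ : ℤ) + 4 := by omega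
    exact_mod_cast this
  have q3 := mul_nonneg hC0 q0
  have q4 := mul_nonneg hN0 q3
  obtain ⟨r0, r1, r2, r3⟩ := h6n h0 h1 hβ hP hgd harm hC0 hp hD hQ hb hG hBG hδ (by linarith) n1'
    f1 f2 f3 f4 f5 hA hC hM1 hm q1 he12 (η := η) (by rw [← hN]; linarith) (by linarith)
    (by linarith) hσ hcf hfl
  obtain ⟨s1, s2⟩ := fin_num hM1 hε hη0.le (by linarith) hη2 he0.le (by rw [← hε']; exact her)
  exact ⟨r1.trans (mul_le_mul_of_nonneg_right s1 r0), r2.trans (mul_le_mul_of_nonneg_right s2 r0),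
    r3.trans (by linarith)⟩

/-- **(H6S) The closed frame**, for all `0 < θ ≤ π / 3`. -/
theorem h6sF (h0 : 0 < θ) (h1 : θ ≤ Real.pi / 3) (hβ : Real.cos (θ / 2 + β) = Real.sin θ)
    (hP : IsLim (2 * Real.cos θ) P) (hL2 : L2S θ β) (hM2 : M2F θ β) : H6S θ β P := by
  have hPp : IsProbabilityMeasure P := hP.1
  obtain ⟨α, C, hα, hC, k1, k2⟩ := FKA.arm_fk (H680.T.cos_le h0 h1) (K8.k_rsw θ h0.le h1)
  exact h6s h0 h1 hβ hP (H685.good_ae (H562.GL.armPr hP hα hC k1 k2)) hα hC.le k1 hL2 hM2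

end Vale.Agent.P167.H662.S6
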