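import Vale.Agent.P167.H398.Q.TG
import Vale.Agent.P167.H506.Q.EF2

/-!
# P167, general `q`, block Q-START, H6S: expectations given more frozen squares

`EF_union`: more frozen squares. `EF_dlr`, `EF_le_of_Ex`: the squares of `D` are resampled.
`close_le`, `close_abs`: frozen squares in the boxes of the holes.
-/

namespace Vale.Agent.P167.H662.S6

open Finset MeasureTheory
open Vale.Agent.P167.FK
open Vale.Agent.P167.FKA (Loc Ind ArmDec cf_out Ex_mono Ex_congr Ex_const Ex_mul_left)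
open Vale.Agent.P167.H519 (IsLim)
open Vale.Agent.P167.QX (QL dlr ql_Ex)
open Vale.Agent.P167.H506.Q (EF fz fz_one fz_zero fz_union fz_loc fz_pos fz_nonneg fz_le_one RM
  rm_holes fac fac_le dlr_fz EF_mono EF_nonneg)
open Vale.Agent.P167.H398.Q (CB EF_lin Gg Gg_good cb_Gg)

variable {Q : ℝ} {K H D : Finset (ℤ × ℤ)} {κ κ' : Cfg} {P : Measure Cfg}

theorem fz_cfg (h : ∀ v ∈ K, κ v = κ' v) : fz K κ = fz K κ' := by
  funext ω
  by_cases h1 : ∀ v ∈ K, ω v = κ v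
  · rw [fz_one h1, fz_one fun v hv => (h1 v hv).trans (h v hv)]
  · rw [fz_zero h1, fz_zero fun h2 => h1 fun v hv => (h2 v hv).trans (h v hv).symm]

theorem EF_cfg (h : ∀ v ∈ K, κ v = κ' v) (F : Cfg → ℝ) : EF P K κ F = EF P K κ' F := by
  unfold EF
  rw [fz_cfg h]

theorem EF_gg (hg : ∀ᵐ ω ∂P, Good ω) (F : Cfg → ℝ) : EF P K κ (Gg F) = EF P K κ F := by
  unfold EF
  congr 1
  refine integral_congr_ae ?_
  filter_upwards [hg] with ω hω
  rw [Gg_good hω]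

/-- More frozen squares. -/
theorem EF_union (hQ : 1 ≤ Q) (hP : IsLim Q P) (hg : ∀ᵐ ω ∂P, Good ω) (F : Cfg → ℝ) :
    EF P (K ∪ H) κ F * EF P K κ (fz H κ) = EF P K κ (fun ω => F ω * fz H κ ω) := by
  have hp := fz_pos hQ hP hg (K ∪ H) κ
  have hp' := fz_pos hQ hP hg K κ
  have e1 : ∫ ω, fz K κ ω * fz H κ ω ∂P = ∫ ω, fz (K ∪ H) κ ω ∂P := by
    refine integral_congr_ae (Filter.Eventually.of_forall fun ω => ?_)
    exact (fz_union K H κ ω).symm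
  have e2 : ∫ ω, fz K κ ω * (F ω * fz H κ ω) ∂P = ∫ ω, fz (K ∪ H) κ ω * F ω ∂P := by
    refine integral_congr_ae (Filter.Eventually.of_forall fun ω => ?_)
    show fz K κ ω * (F ω * fz H κ ω) = fz (K ∪ H) κ ω * F ω
    rw [fz_union]
    ring
  unfold EF
  rw [e1, e2]
  field_simp

theorem EF_fz_pos (hQ : 1 ≤ Q) (hP : IsLim Q P) (hg : ∀ᵐ ω ∂P, Good ω) :
    0 < EF P K κ (fz H κ) := by
  have hp := fz_pos hQ hP hg (K ∪ H) κ
  have hp' := fz_pos hQ hP hg K κ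
  have e1 : ∫ ω, fz K κ ω * fz H κ ω ∂P = ∫ ω, fz (K ∪ H) κ ω ∂P := by
    refine integral_congr_ae (Filter.Eventually.of_forall fun ω => ?_)
    exact (fz_union K H κ ω).symm
  unfold EF
  rw [e1]
  positivity

theorem cb_Ex (hQ : 0 < Q) (D : Finset (ℤ × ℤ)) {F : Cfg → ℝ} (hF : CB F) :
    CB fun ω => Ex Q D ω F := by
  obtain ⟨h1, M, hM⟩ := hF
  refine ⟨ql_Ex D h1, M, fun ω hω => ?_⟩
  refine (FKA.abs_Ex_le hQ F).trans ?_
  rw [← Ex_const (D := D) (η := ω) hQ M]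
  exact Ex_mono hQ fun S _ => hM _ (f_good.1 D ω S hω)

/-- The squares of `D` are resampled. -/
theorem EF_dlr (hQ : 1 ≤ Q) (hP : IsLim Q P) (hg : ∀ᵐ ω ∂P, Good ω) (hDK : Disjoint D K)
    {F : Cfg → ℝ} (hF : CB F) : EF P K κ F = EF P K κ (fun ω => Ex Q D ω F) := by
  obtain ⟨h1, M, hM⟩ := hF
  have h := dlr_fz (κ := κ) (by linarith) hDK hP hg h1 hM (QL.const 1)
    (M := 1) (fun ω _ => by simp) fun _ _ _ => rfl
  simp only [one_mul] at h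
  unfold EF
  rw [h]

theorem EF_le_of_Ex (hQ : 1 ≤ Q) (hP : IsLim Q P) (hg : ∀ᵐ ω ∂P, Good ω) (hDK : Disjoint D K)
    {F G : Cfg → ℝ} (hF : CB F) (hG : CB G)
    (h : ∀ ω, Good ω → (∀ v ∈ K, ω v = κ v) → Ex Q D ω F ≤ Ex Q D ω G) :
    EF P K κ F ≤ EF P K κ G := by
  have hPp : IsProbabilityMeasure P := hP.1
  rw [EF_dlr hQ hP hg hDK hF, EF_dlr hQ hP hg hDK hG]
  obtain ⟨h1, M, hM⟩ := cb_Ex (by linarith : 0 < Q) D hF
  obtain ⟨h2, M', hM'⟩ := cb_Ex (by linarith : 0 < Q) D hG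
  exact EF_mono hg h1 h2 hM hM' h

section close

variable {ι : Type} [DecidableEq ι] {α C : ℝ} {J : Finset ι} {c : ι → ℤ × ℤ} {r R : ℤ} {s : Cfg}

/-- **Closing the holes**, nonnegative functions. -/
theorem close_le (hQ : 1 ≤ Q) (hκ : Good κ) (h : ArmDec Q α C) (hr : 1 ≤ r) (hrR : r ≤ R)
    (hdis : ∀ i ∈ J, ∀ j ∈ J, i ≠ j → Disjoint (Bq (c i) R) (Bq (c j) R))
    (hcol : ∀ i ∈ J, ∃ b : Bool, ∀ v ∈ K, v ∈ Bq (c i) R → κ v = b)
    (hC : 0 ≤ C) (hε1 : C * ((r : ℝ) / R) ^ α < 1)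
    (hε : 8 * J.card * (C * ((r : ℝ) / R) ^ α) ≤ 1) (hP : IsLim Q P) (hg : ∀ᵐ ω ∂P, Good ω)
    (hH : H ⊆ J.biUnion fun i => Bq (c i) r) (hs : ∀ v ∈ K, s v = κ v) {G : Cfg → ℝ}
    (hG0 : ∀ ω, 0 ≤ G ω) (hGc : CB G) (hG : Ind ((J.biUnion fun i => Bq (c i) R) \ K) G) :
    EF P (K ∪ H) s G ≤ (1 + 8 * J.card * (C * ((r : ℝ) / R) ^ α)) * EF P K κ G ∧
      EF P K κ G ≤ (1 + 8 * J.card * (C * ((r : ℝ) / R) ^ α)) * EF P (K ∪ H) s G := by
  obtain ⟨hGq, M, hM⟩ := hGc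
  have hRr : (0 : ℝ) < r := by exact_mod_cast (by omega : 0 < r)
  have hRR : (0 : ℝ) < R := by exact_mod_cast (by omega : 0 < R)
  have hε0 : 0 ≤ C * ((r : ℝ) / R) ^ α := by positivity
  have h1 := rm_holes hQ hκ h J c hr hrR hdis hcol hε1
  have hT : Loc (((J.biUnion fun i => Bq (c i) r) \ K) ∪ K) (fz H s) := by
    rw [Finset.sdiff_union_self_eq_union]
    intro ω ω' hh
    exact fz_loc H s ω ω' fun v hv => hh v (mem_union_left _ (hH hv))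
  obtain ⟨r1, r2⟩ := h1.EF_ratio hQ Finset.sdiff_disjoint hP hg (fun ω => fz_nonneg H s ω) hT hG0
    hGq hM hG
  have e1 : ∀ F : Cfg → ℝ, EF P K κ F = EF P K s F := fun F => EF_cfg (fun v hv => (hs v hv).symm) F
  rw [e1, e1, e1, ← EF_union hQ hP hg] at r1 r2
  rw [e1]
  have hpos : 0 < EF P K s (fz H s) := EF_fz_pos hQ hP hg
  have hfac := fac_le hε0 hε hε1
  have g1 : 0 ≤ EF P K s G := EF_nonneg hG0
  have g2 : 0 ≤ EF P (K ∪ H) s G := EF_nonneg hG0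
  constructor
  · refine le_trans ?_ (mul_le_mul_of_nonneg_right hfac g1)
    refine le_of_mul_le_mul_right ?_ hpos
    rw [mul_assoc]
    exact r1
  · refine le_trans ?_ (mul_le_mul_of_nonneg_right hfac g2)
    refine le_of_mul_le_mul_right ?_ hpos
    rw [mul_assoc]
    exact r2

theorem close_num {x y η : ℝ} (h0 : 0 ≤ η) (h1 : x ≤ (1 + η) * y)
    (h2 : y ≤ (1 + η) * x) : |x - y| ≤ η * y := by
  rw [abs_le]
  constructor
  · rcases le_total x y with h | h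
    · nlinarith
    · nlinarith
  · linarith

/-- **Closing the holes.** -/
theorem close_abs (hQ : 1 ≤ Q) (hκ : Good κ) (h : ArmDec Q α C) (hr : 1 ≤ r) (hrR : r ≤ R)
    (hdis : ∀ i ∈ J, ∀ j ∈ J, i ≠ j → Disjoint (Bq (c i) R) (Bq (c j) R))
    (hcol : ∀ i ∈ J, ∃ b : Bool, ∀ v ∈ K, v ∈ Bq (c i) R → κ v = b)
    (hC : 0 ≤ C) (hε1 : C * ((r : ℝ) / R) ^ α < 1)
    (hε : 8 * J.card * (C * ((r : ℝ) / R) ^ α) ≤ 1) (hP : IsLim Q P) (hg : ∀ᵐ ω ∂P, Good ω)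
    (hH : H ⊆ J.biUnion fun i => Bq (c i) r) (hs : ∀ v ∈ K, s v = κ v) {F : Cfg → ℝ}
    (hF : CB F) (hFi : Ind ((J.biUnion fun i => Bq (c i) R) \ K) F) :
    |EF P K κ F - EF P (K ∪ H) s F| ≤
      8 * J.card * (C * ((r : ℝ) / R) ^ α) * EF P (K ∪ H) s (fun ω => |F ω|) := by
  have hPp : IsProbabilityMeasure P := hP.1
  have hRr : (0 : ℝ) < r := by exact_mod_cast (by omega : 0 < r)
  have hRR : (0 : ℝ) < R := by exact_mod_cast (by omega : 0 < R)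
  have hη0 : 0 ≤ 8 * J.card * (C * ((r : ℝ) / R) ^ α) := by positivity
  obtain ⟨η, hη⟩ : ∃ η, η = 8 * J.card * (C * ((r : ℝ) / R) ^ α) := ⟨_, rfl⟩
  -- the two parts
  have cA : CB fun ω => |F ω| := hF.abs
  have cp : CB fun ω => (1 / 2) * |F ω| + (1 / 2) * F ω := cA.lin hF _ _
  have cm : CB fun ω => (1 / 2) * |F ω| + (-(1 / 2)) * F ω := cA.lin hF _ _
  have ip : Ind ((J.biUnion fun i => Bq (c i) R) \ K) fun ω => (1 / 2) * |F ω| + (1 / 2) * F ω :=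
    fun ω ω' hh => by simp only [hFi ω ω' hh]
  have im : Ind ((J.biUnion fun i => Bq (c i) R) \ K)
      fun ω => (1 / 2) * |F ω| + (-(1 / 2)) * F ω :=
    fun ω ω' hh => by simp only [hFi ω ω' hh]
  have p0 : ∀ ω, 0 ≤ (1 / 2) * |F ω| + (1 / 2) * F ω := fun ω => by
    have := neg_abs_le (F ω)
    linarith
  have m0 : ∀ ω, 0 ≤ (1 / 2) * |F ω| + (-(1 / 2)) * F ω := fun ω => by
    have := le_abs_self (F ω)
    linarith
  obtain ⟨a1, a2⟩ := close_le hQ hκ h hr hrR hdis hcol hC hε1 hε hP hg hH hs p0 cp ip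
  obtain ⟨b1, b2⟩ := close_le hQ hκ h hr hrR hdis hcol hC hε1 hε hP hg hH hs m0 cm im
  rw [← hη] at a1 a2 b1 b2 ⊢
  rw [← hη] at hη0
  have k1 := close_num hη0 a2 a1
  have k2 := close_num hη0 b2 b1
  rw [EF_lin hg cA hF, EF_lin hg cA hF] at k1 k2
  rw [abs_le] at k1 k2 ⊢
  constructor <;> linarith [k1.1, k1.2, k2.1, k2.2]

end close

end Vale.Agent.P167.H662.S6
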