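import Vale.Agent.P167.H662.S6.A
import Vale.Agent.P167.H398.Q.ODefs
import Vale.Agent.P167.H592.S.Close

/-!
# P167, general `q`, block Q-START, H6S: the functional of the closed frame, law-free part

Off the arms the loops which visit the holes are confined, the flow vanishes on them, and `XBoff` is
`XB`. The product over the loops off the holes does not depend on the squares of the domain.
-/

namespace Vale.Agent.P167.H662.S6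

open Finset MeasureTheory
open Vale.Agent.P167.BR
open Vale.Agent.P167.FK
open Vale.Agent.P167.FKA (Loc Ind cf_out)
open Vale.Agent.P167.E6 (IsPolygon Encloses face)
open Vale.Agent.P167.XDL (bS mem_bS)
open Vale.Agent.P167.H718 (Dob)
open Vale.Agent.P167.H825 (dv enl Marks FlowIn)
open Vale.Agent.P167.H825.Q (Row Bc)
open Vale.Agent.P167.H680.T (rowC uI frows mem_uI)
open Vale.Agent.P167.H685 (LE)
open Vale.Agent.P167.H662 (hsite)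
open Vale.Agent.P167.QX (QL TO fLp VisL XBoff XB Vis XB_eq_off XB_zero loc_XB)
open Vale.Agent.P167.Enl (tB qN frmQ isPolygon_qN encloses_qN flow_in box_flow loop_iter uI_frows
  clH clS clH_sub clH_disj frmQ_disj clS_frm)
open Vale.Agent.P167.H398.Q

variable {l : ℕ} {p : ZMod l → ℤ × ℤ} {S₀ : Finset (ℤ × ℤ)} {Q : Marks} {bc : Bc} {n d : ℕ}
  {θ β : ℝ} {c : Ed → ℝ} {R₃ R₄ : ℤ} {ω ω' : Cfg}

/-- Off the arms the loops at the holes are confined. -/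
theorem cnf_NA {R' : ℤ} (h34 : R₃ + 2 ≤ R₄) (h4 : R₄ ≤ R')
    (ha : ω ∈ NAh p Q bc n (R₃ + 1) (R₄ - 1)) : Cnf p Q n R₃ R' ω := by
  intro ℓ hl hv
  obtain ⟨x, -, hx⟩ := conf_NA (J := univ) (b := bcol p Q bc n) (c := hsite p Q n) hl h34 hv ha
  exact ⟨x, fun v hv => Bq_mono' h4 (hx v hv)⟩

/-- Off the arms the flow vanishes on the loops at the holes. -/
theorem XBoff_eq (hp : IsPolygon p) (hD : Encloses p S₀) (hQ : Q.Ok) (hn : 0 < n) {κ₀ B₀ : ℝ}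
    (hfl : FlowIn (enl S₀ n) κ₀ B₀ n c) (h34 : R₃ + 2 ≤ R₄) (hR4 : (R₄ : ℝ) + 2 ≤ κ₀ * n)
    (hκ₀ : 1 ≤ κ₀ * n) (hω : Good ω) (ha : ω ∈ NAh p Q bc n (R₃ + 1) (R₄ - 1))
    (hs : Real.sin θ ≠ 0) (hc : Real.cos θ ≠ 0) (hβ : Real.cos (θ / 2 + β) = Real.sin θ) (k : ℕ) :
    XBoff θ β (qN p n (tB n Q)) (enl S₀ n) k (dv c) (hB p Q n R₃ : Set (ℤ × ℤ)) ω =
      XB θ β (qN p n (tB n Q)) (enl S₀ n) k (dv c) ω := by
  symm
  refine XB_eq_off (isPolygon_qN hn hp _) (encloses_qN hn hp hD _) hω (flow_in hfl hκ₀) ?_ hs hc hβ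
  rintro e ⟨k, hk⟩
  obtain ⟨ℓ, hℓ, heℓ⟩ := hω e
  obtain ⟨x, hx⟩ := cnf_NA h34 le_rfl ha ℓ hℓ ⟨_, loop_iter hℓ heℓ k, hk⟩
  exact box_flow hp hD hQ hn hfl (R := R₄) hR4
    (Or.inl (hx (hdv e) (mem_image_of_mem hdv heℓ)))

theorem dv_0 : dv (0 : Ed → ℝ) = 0 := by
  funext z
  simp [H825.dv]

/-- Without flow the functional of the domain is `1`. -/
theorem XBoff_0 (hp : IsPolygon p) (hD : Encloses p S₀) (hn : 0 < n) (hω : Good ω)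
    (hs : Real.sin θ ≠ 0) (hc : Real.cos θ ≠ 0) (hβ : Real.cos (θ / 2 + β) = Real.sin θ) (k : ℕ)
    (B : Set (ℤ × ℤ)) :
    XBoff θ β (qN p n (tB n Q)) (enl S₀ n) k (dv (0 : Ed → ℝ)) B ω = 1 := by
  rw [← XB_eq_off (c := (0 : Ed → ℝ)) (isPolygon_qN hn hp _) (encloses_qN hn hp hD _) hω
    (fun e h => absurd rfl h) (fun _ _ => rfl) hs hc hβ, dv_0, XB_zero hs hc hβ]

/-- The product over the loops off the holes, off the arms. -/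
noncomputable def TN (θ β : ℝ) (p : ZMod l → ℤ × ℤ) (Q : Marks) (bc : Bc) (n d : ℕ) (R₃ R₄ : ℤ)
    (ω : Cfg) : ℝ :=
  TO θ (uI (frows θ β p Q n d bc)) (rowC θ (frows θ β p Q n d bc) 0).ph (hB p Q n R₃) ω *
    (NAh p Q bc n (R₃ + 1) (R₄ - 1)).indicator 1 ω

theorem Gf_0 (hp : IsPolygon p) (hD : Encloses p S₀) (hn : 0 < n) (hω : Good ω)
    (hs : Real.sin θ ≠ 0) (hc : Real.cos θ ≠ 0) (hβ : Real.cos (θ / 2 + β) = Real.sin θ) :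
    Gf θ β p S₀ Q bc n d 0 R₃ R₄ ω = TN θ β p Q bc n d R₃ R₄ ω := by
  unfold Gf TN
  rw [XBoff_0 hp hD hn hω hs hc hβ, mul_one]

theorem Gf_c (hp : IsPolygon p) (hD : Encloses p S₀) (hQ : Q.Ok) (hn : 0 < n) {κ₀ B₀ : ℝ}
    (hfl : FlowIn (enl S₀ n) κ₀ B₀ n c) (h34 : R₃ + 2 ≤ R₄) (hR4 : (R₄ : ℝ) + 2 ≤ κ₀ * n)
    (hκ₀ : 1 ≤ κ₀ * n) (hω : Good ω) (hs : Real.sin θ ≠ 0) (hc : Real.cos θ ≠ 0)
    (hβ : Real.cos (θ / 2 + β) = Real.sin θ) :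
    Gf θ β p S₀ Q bc n d c R₃ R₄ ω = TN θ β p Q bc n d R₃ R₄ ω *
      XB θ β (qN p n (tB n Q)) (enl S₀ n) (bc.ka l n (tB n Q)) (dv c) ω := by
  classical
  unfold Gf TN
  by_cases h : ω ∈ NAh p Q bc n (R₃ + 1) (R₄ - 1)
  · rw [XBoff_eq hp hD hQ hn hfl h34 hR4 hκ₀ hω h hs hc hβ]
    ring
  · rw [Set.indicator_of_notMem h]
    ring

/-- (L2S) (a) for one size. -/
def HA (θ β : ℝ) (p : ZMod l → ℤ × ℤ) (Q : Marks) (bc : Bc) (n d : ℕ) : Prop :=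
  ∀ ω, Good ω → Frz (frows θ β p Q n d bc) ω →
    ∀ ℓ ∈ LE ω (bS (uI (frows θ β p Q n d bc))), ¬ VisL (hB p Q n (d + 4)) ℓ →
    0 ≤ fLp θ (uI (frows θ β p Q n d bc)) (rowC θ (frows θ β p Q n d bc) 0).ph ω ℓ

/-- (L2S) (c) for one size. -/
def HC (θ β : ℝ) (p : ZMod l → ℤ × ℤ) (S₀ : Finset (ℤ × ℤ)) (Q : Marks) (bc : Bc) (n d : ℕ)
    (R₃ R' : ℤ) : Prop :=
  ∀ ω ω', Good ω → Frz (frows θ β p Q n d bc) ω → Good ω' → Frz (frows θ β p Q n d bc) ω' →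
    Cnf p Q n R₃ R' ω → Cnf p Q n R₃ R' ω' → (∀ v ∉ enl S₀ n, v ∉ hB p Q n R₃ → ω v = ω' v) →
    TO θ (uI (frows θ β p Q n d bc)) (rowC θ (frows θ β p Q n d bc) 0).ph (hB p Q n R₃) ω =
      TO θ (uI (frows θ β p Q n d bc)) (rowC θ (frows θ β p Q n d bc) 0).ph (hB p Q n R₃) ω'

theorem ind01 {S : Set Cfg} : (0 : ℝ) ≤ S.indicator 1 ω :=
  Set.indicator_nonneg (fun _ _ => zero_le_one) _

theorem TN_nonneg (hA : HA θ β p Q bc n d) (hR : (d : ℤ) + 4 ≤ R₃) (hω : Good ω)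
    (hf : Frz (frows θ β p Q n d bc) ω) : 0 ≤ TN θ β p Q bc n d R₃ R₄ ω := by
  classical
  unfold TN TO
  refine mul_nonneg (prod_nonneg fun ℓ hℓ => ?_) ind01
  obtain ⟨h1, h2⟩ := mem_filter.1 hℓ
  refine hA ω hω hf ℓ h1 fun h3 => h2 ?_
  obtain ⟨e, he, h4⟩ := h3
  refine ⟨e, he, ?_⟩
  rw [Finset.mem_coe, H398.Q.mem_hB] at h4 ⊢
  obtain ⟨x, hx⟩ := h4
  exact ⟨x, Bq_mono' hR hx⟩

theorem frz_cf {D S : Finset (ℤ × ℤ)} (hDK : Disjoint D (uI (frows θ β p Q n d bc)))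
    (hf : Frz (frows θ β p Q n d bc) ω) : Frz (frows θ β p Q n d bc) (cf D ω S) := by
  intro x v hv
  have h1 : v ∉ D := fun h => Finset.disjoint_left.1 hDK h (mem_uI.2 ⟨x, hv⟩)
  rw [cf_out h1]
  exact hf x v hv

/-- **The product over the loops off the holes is constant** on the domain. -/
theorem TN_const (hA : HA θ β p Q bc n d) {R' : ℤ} (hC : HC θ β p S₀ Q bc n d R₃ R')
    (hR : (d : ℤ) + 4 ≤ R₃) (h34 : R₃ + 2 ≤ R₄) (h4 : R₄ ≤ R')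
    (hDK : Disjoint (enl S₀ n) (uI (frows θ β p Q n d bc))) (hω : Good ω)
    (hf : Frz (frows θ β p Q n d bc) ω) :
    ∃ T : ℝ, 0 ≤ T ∧ ∀ S, S ⊆ enl S₀ n → TN θ β p Q bc n d R₃ R₄ (cf (enl S₀ n) ω S) =
      T * (NAh p Q bc n (R₃ + 1) (R₄ - 1)).indicator 1 (cf (enl S₀ n) ω S) := by
  classical
  have hg : ∀ S, S ⊆ enl S₀ n → Good (cf (enl S₀ n) ω S) := fun S hS => f_good.1 _ ω S hω
  by_cases h : ∃ S, S ⊆ enl S₀ n ∧
      cf (enl S₀ n) ω S ∈ NAh p Q bc n (R₃ + 1) (R₄ - 1)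
  · obtain ⟨S₁, h1, h2⟩ := h
    refine ⟨TN θ β p Q bc n d R₃ R₄ (cf (enl S₀ n) ω S₁),
      TN_nonneg hA hR (hg S₁ h1) (frz_cf hDK hf), fun S hS => ?_⟩
    by_cases h3 : cf (enl S₀ n) ω S ∈ NAh p Q bc n (R₃ + 1) (R₄ - 1)
    · unfold TN
      rw [hC (cf (enl S₀ n) ω S) (cf (enl S₀ n) ω S₁) (hg S hS) (frz_cf hDK hf) (hg S₁ h1)
        (frz_cf hDK hf) (cnf_NA h34 h4 h3) (cnf_NA h34 h4 h2) (fun v hv _ => by
          rw [cf_out hv, cf_out hv]), Set.indicator_of_mem h2, Set.indicator_of_mem h3]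
      simp
    · unfold TN
      rw [Set.indicator_of_notMem h3, mul_zero, mul_zero]
  · refine ⟨0, le_rfl, fun S hS => ?_⟩
    have h3 : cf (enl S₀ n) ω S ∉ NAh p Q bc n (R₃ + 1) (R₄ - 1) := fun h' => h ⟨S, hS, h'⟩
    unfold TN
    rw [Set.indicator_of_notMem h3, mul_zero, mul_zero]

end Vale.Agent.P167.H662.S6
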