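import Vale.Agent.P167.H662.S6.B

/-!
# P167, general `q`, block Q-START, H6S: from the domain to the closed frame to the frame
-/

namespace Vale.Agent.P167.H662.S6

open Finset MeasureTheory
open Vale.Agent.P167.FK
open Vale.Agent.P167.FKA (Loc Ind ArmDec cf_out Ex_mono Ex_congr Ex_const Ex_mul_left Ex_add
  Ex_nonneg)
open Vale.Agent.P167.H519 (IsLim)
open Vale.Agent.P167.QX (QL dlr ql_Ex)
open Vale.Agent.P167.H506.Q (EF EF_mono EF_nonneg)
open Vale.Agent.P167.H398.Q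

variable {q : ℝ} {K D : Finset (ℤ × ℤ)} {s ω : Cfg} {P : Measure Cfg} {A : Set Cfg}
  {X GC G0 : Cfg → ℝ} {T M e V ε₁ M' η : ℝ}

/-- The error of the closed frame. -/
noncomputable def er (M e : ℝ) : ℝ := 4 * (Real.sqrt (M * e) + M * e)

theorem er_nonneg (hM : 0 ≤ M) (he : 0 ≤ e) : 0 ≤ er M e := by
  unfold er
  positivity

theorem Ex_abs_le (hQ : 0 < q) (hM : 1 ≤ M) (h : Ex q D ω (fun ω => X ω ^ 2) ≤ M) :
    Ex q D ω (fun ω => |X ω|) ≤ M := by
  have h1 : Ex q D ω (fun ω => |X ω|) ≤ Ex q D ω (fun ω => (1 / 2) * X ω ^ 2 + 1 / 2) := by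
    refine Ex_mono hQ fun S _ => ?_
    rw [← sq_abs (X (cf D ω S))]
    nlinarith [sq_nonneg (|X (cf D ω S)| - 1)]
  rw [Ex_add, Ex_mul_left, Ex_const hQ] at h1
  linarith

/-- **On the domain.** -/
theorem onD (hQ : 0 < q) (hT : 0 ≤ T) (hM : 1 ≤ M) (he : 0 ≤ e)
    (h0 : ∀ S, S ⊆ D → G0 (cf D ω S) = T * A.indicator 1 (cf D ω S))
    (hc : ∀ S, S ⊆ D → GC (cf D ω S) = T * A.indicator 1 (cf D ω S) * X (cf D ω S))
    (hX2 : Ex q D ω (fun ω => X ω ^ 2) ≤ M)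
    (h1 : |Ex q D ω (fun ω => X ω * A.indicator 1 ω) - Ex q D ω X * Ex q D ω (A.indicator 1)| ≤
      4 * (Real.sqrt (M * e) + |Ex q D ω X| * e) * Ex q D ω (A.indicator 1))
    (h2 : |Ex q D ω (fun ω => |X ω| * A.indicator 1 ω) -
        Ex q D ω (fun ω => |X ω|) * Ex q D ω (A.indicator 1)| ≤
      4 * (Real.sqrt (M * e) + |Ex q D ω (fun ω => |X ω|)| * e) * Ex q D ω (A.indicator 1)) :
    0 ≤ Ex q D ω G0 ∧ |Ex q D ω GC - Ex q D ω X * Ex q D ω G0| ≤ er M e * Ex q D ω G0 ∧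
      Ex q D ω (fun ω => |GC ω|) ≤ (M + er M e) * Ex q D ω G0 ∧ |Ex q D ω X| ≤ M := by
  classical
  have hN : 0 ≤ Ex q D ω (A.indicator 1) := Ex_nonneg hQ fun S _ => ind01
  have hXa := Ex_abs_le hQ hM hX2
  have hXa0 : 0 ≤ Ex q D ω (fun ω => |X ω|) := Ex_nonneg hQ fun S _ => abs_nonneg _
  have hXV : |Ex q D ω X| ≤ M := (FKA.abs_Ex_le hQ X).trans hXa
  have e0 : Ex q D ω G0 = T * Ex q D ω (A.indicator 1) := by
    rw [← Ex_mul_left]
    exact Ex_congr fun S hS => h0 S hS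
  have ec : Ex q D ω GC = T * Ex q D ω (fun ω => X ω * A.indicator 1 ω) := by
    rw [← Ex_mul_left]
    exact Ex_congr fun S hS => by rw [hc S hS]; ring
  have ea : Ex q D ω (fun ω => |GC ω|) = T * Ex q D ω (fun ω => |X ω| * A.indicator 1 ω) := by
    rw [← Ex_mul_left]
    refine Ex_congr fun S hS => ?_
    rw [hc S hS, abs_mul, abs_mul, abs_of_nonneg hT, abs_of_nonneg ind01]
    ring
  obtain ⟨N, hN'⟩ : ∃ N, N = Ex q D ω (A.indicator 1) := ⟨_, rfl⟩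
  rw [← hN'] at h1 h2 hN e0
  rw [e0, ec, ea]
  have hs := Real.sqrt_nonneg (M * e)
  have b1 : 4 * (Real.sqrt (M * e) + |Ex q D ω X| * e) * N ≤ er M e * N := by
    refine mul_le_mul_of_nonneg_right ?_ hN
    unfold er
    have := mul_le_mul_of_nonneg_right hXV he
    linarith
  have b2 : 4 * (Real.sqrt (M * e) + |Ex q D ω (fun ω => |X ω|)| * e) * N ≤ er M e * N := by
    refine mul_le_mul_of_nonneg_right ?_ hN
    unfold er
    rw [abs_of_nonneg hXa0]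
    have := mul_le_mul_of_nonneg_right hXa he
    linarith
  refine ⟨mul_nonneg hT hN, ?_, ?_, hXV⟩
  · have e1 : T * Ex q D ω (fun ω => X ω * A.indicator 1 ω) - Ex q D ω X * (T * N) =
      T * (Ex q D ω (fun ω => X ω * A.indicator 1 ω) - Ex q D ω X * N) := by ring
    rw [e1, abs_mul, abs_of_nonneg hT]
    calc _ ≤ T * (er M e * N) := mul_le_mul_of_nonneg_left (h1.trans b1) hT
      _ = _ := by ring
  · have h3 := (abs_le.1 (h2.trans b2)).2
    have h4 : Ex q D ω (fun ω => |X ω|) * N ≤ M * N := mul_le_mul_of_nonneg_right hXa hN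
    calc _ ≤ T * (M * N + er M e * N) := mul_le_mul_of_nonneg_left (by linarith) hT
      _ = _ := by ring

/-- **The closed frame.** -/
theorem onE2 (hq : 1 ≤ q) (hP : IsLim q P) (hg : ∀ᵐ ω ∂P, Good ω) (hDK : Disjoint D K)
    (h0 : CB G0) (hc : CB GC)
    (h : ∀ ω, Good ω → (∀ v ∈ K, ω v = s v) → 0 ≤ Ex q D ω G0 ∧
      |Ex q D ω GC - V * Ex q D ω G0| ≤ ε₁ * Ex q D ω G0 ∧
      Ex q D ω (fun ω => |GC ω|) ≤ M' * Ex q D ω G0) :
    0 ≤ EF P K s G0 ∧ |EF P K s GC - V * EF P K s G0| ≤ ε₁ * EF P K s G0 ∧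
      EF P K s (fun ω => |GC ω|) ≤ M' * EF P K s G0 := by
  have hPp : IsProbabilityMeasure P := hP.1
  have hZ : CB fun _ => (0 : ℝ) := CB.const 0
  have z0 : EF P K s (fun _ => (0 : ℝ)) = 0 := by
    unfold EF
    simp
  have eL : ∀ a b : ℝ, ∀ F G : Cfg → ℝ, Ex q D = Ex q D → ∀ ω,
      Ex q D ω (fun ω => a * F ω + b * G ω) = a * Ex q D ω F + b * Ex q D ω G := by
    intro a b F G _ ω
    rw [Ex_add, Ex_mul_left, Ex_mul_left]
  refine ⟨?_, ?_, ?_⟩
  · rw [← z0]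
    refine EF_le_of_Ex hq hP hg hDK hZ h0 fun ω hω hk => ?_
    rw [Ex_const (by linarith)]
    exact (h ω hω hk).1
  · rw [abs_le]
    constructor
    · have h1 := EF_le_of_Ex hq hP hg hDK (CB.lin h0 h0 (-ε₁) 0) (CB.lin hc h0 1 (-V))
        fun ω hω hk => by
          rw [eL _ _ _ _ rfl, eL _ _ _ _ rfl]
          have := (abs_le.1 (h ω hω hk).2.1).1
          linarith
      rw [EF_lin hg h0 h0, EF_lin hg hc h0] at h1
      linarith
    · have h1 := EF_le_of_Ex hq hP hg hDK (CB.lin hc h0 1 (-V)) (CB.lin h0 h0 ε₁ 0)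
        fun ω hω hk => by
          rw [eL _ _ _ _ rfl, eL _ _ _ _ rfl]
          have := (abs_le.1 (h ω hω hk).2.1).2
          linarith
      rw [EF_lin hg h0 h0, EF_lin hg hc h0] at h1
      linarith
  · have h1 := EF_le_of_Ex hq hP hg hDK hc.abs (CB.lin h0 h0 M' 0)
      fun ω hω hk => by
        rw [eL _ _ _ _ rfl]
        have := (h ω hω hk).2.2
        linarith
    rw [EF_lin hg h0 h0] at h1
    linarith

/-- **From the closed frame to the frame**, numbers. -/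
theorem onE1 {x y xc yc ac bc : ℝ} (hη : 0 ≤ η) (hM' : 0 ≤ M') (hε : 0 ≤ ε₁)
    (k1 : |xc - yc| ≤ η * bc) (k2 : |x - y| ≤ η * y) (k3 : ac ≤ (1 + η) * bc)
    (k4 : y ≤ (1 + η) * x) (k5 : |yc - V * y| ≤ ε₁ * y) (k6 : bc ≤ M' * y) (hV : |V| ≤ M') :
    |xc - V * x| ≤ ((2 * η * M' + ε₁) * (1 + η)) * x ∧ ac ≤ (1 + η) ^ 2 * M' * x := by
  have h1 : |xc - V * x| ≤ |xc - yc| + |yc - V * y| + |V| * |x - y| := by
    have e1 : xc - V * x = (xc - yc) + (yc - V * y) + V * (-(x - y)) := by ring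
    rw [e1]
    refine (abs_add_le _ _).trans ?_
    rw [abs_mul, abs_neg]
    linarith [abs_add_le (xc - yc) (yc - V * y)]
  have hy : 0 ≤ (2 * η * M' + ε₁) := by positivity
  have h2 : |V| * |x - y| ≤ M' * (η * y) :=
    mul_le_mul hV k2 (abs_nonneg _) hM'
  have h3 : η * bc ≤ η * (M' * y) := mul_le_mul_of_nonneg_left k6 hη
  have h4 : (2 * η * M' + ε₁) * y ≤ (2 * η * M' + ε₁) * ((1 + η) * x) :=
    mul_le_mul_of_nonneg_left k4 hy
  constructor
  · calc |xc - V * x| ≤ (2 * η * M' + ε₁) * y := by linarith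
      _ ≤ _ := h4
      _ = _ := by ring
  · have h5 : (1 + η) * bc ≤ (1 + η) * (M' * y) := mul_le_mul_of_nonneg_left k6 (by linarith)
    have h6 : (1 + η) * M' * y ≤ (1 + η) * M' * ((1 + η) * x) :=
      mul_le_mul_of_nonneg_left k4 (by positivity)
    calc ac ≤ (1 + η) * bc := k3
      _ ≤ (1 + η) * M' * y := by linarith
      _ ≤ _ := h6
      _ = _ := by ring

end Vale.Agent.P167.H662.S6
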