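import Vale.Agent.P167.H662.S6.C
import Vale.Agent.P167.H601.Q.Cls

/-!
# P167, general `q`, block Q-START, H6S: the frame with holes of one size
-/

namespace Vale.Agent.P167.H662.S6

open Finset MeasureTheory
open Vale.Agent.P167.BR (sites mem_sites)
open Vale.Agent.P167.FK
open Vale.Agent.P167.FKA (Loc Ind ArmDec cf_out Ex_mono Ex_congr Ex_const Ex_mul_left Ex_add
  Ex_nonneg)
open Vale.Agent.P167.E6 (IsPolygon Encloses face)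
open Vale.Agent.P167.XDL (bS mem_bS)
open Vale.Agent.P167.H718 (Dob)
open Vale.Agent.P167.H825 (dv enl Marks FlowIn)
open Vale.Agent.P167.H825.Q (Row Bc VT VT_eq)
open Vale.Agent.P167.H680.T (rowC uI frows mem_uI)
open Vale.Agent.P167.H199 (Gap)
open Vale.Agent.P167.H662 (hsite)
open Vale.Agent.P167.H519 (IsLim cf_in)
open Vale.Agent.P167.QX (QL XB XBoff loc_XB)
open Vale.Agent.P167.Enl (tB qN tB_lt frmQ isPolygon_qN encloses_qN uI_frows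
  clH clS clH_sub clH_disj frmQ_disj clS_frm cl_cov dob_cl cl_box BGap gn_big wc)
open Vale.Agent.P167.H506.Q (EF EF_mono EF_nonneg)
open Vale.Agent.P167.H398.Q

variable {l : ℕ} {p : ZMod l → ℤ × ℤ} {S₀ : Finset (ℤ × ℤ)} {Q : Marks} {bc : Bc} {n : ℕ}
  {θ β : ℝ} {c : Ed → ℝ} {R₃ R₄ : ℤ} {ω ω' : Cfg}

/-- Squares which touch have a corner in common. -/
theorem touch {D : Finset (ℤ × ℤ)} {v w : ℤ × ℤ} (hw : w ∈ D) (h : Tch v w) :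
    ∃ s ∈ sites D, ∃ r, face s r = v := by
  obtain ⟨h1, h2⟩ := h
  rw [abs_le] at h1 h2
  obtain ⟨v1, v2⟩ := v
  obtain ⟨w1, w2⟩ := w
  simp only at h1 h2
  have f0 : ∀ a b : ℤ, face (a, b) 0 = (a + 0, b + 0) := fun _ _ => rfl
  have f1 : ∀ a b : ℤ, face (a, b) 1 = (a + -1, b + 0) := fun _ _ => rfl
  have f2 : ∀ a b : ℤ, face (a, b) 2 = (a + -1, b + -1) := fun _ _ => rfl
  have f3 : ∀ a b : ℤ, face (a, b) 3 = (a + 0, b + -1) := fun _ _ => rfl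
  rcases le_or_gt w1 v1 with ha | ha <;> rcases le_or_gt w2 v2 with hb | hb
  · refine ⟨(v1, v2), mem_sites.2 ⟨_, hw, ?_, ?_⟩, 0, ?_⟩
    · simp only; omega
    · simp only; omega
    · rw [f0]; simp
  · refine ⟨(v1, v2 + 1), mem_sites.2 ⟨_, hw, ?_, ?_⟩, 3, ?_⟩
    · simp only; omega
    · simp only; omega
    · rw [f3]; simp
  · refine ⟨(v1 + 1, v2), mem_sites.2 ⟨_, hw, ?_, ?_⟩, 1, ?_⟩
    · simp only; omega
    · simp only; omega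
    · rw [f1]; simp
  · refine ⟨(v1 + 1, v2 + 1), mem_sites.2 ⟨_, hw, ?_, ?_⟩, 2, ?_⟩
    · simp only; omega
    · simp only; omega
    · rw [f2]; simp

/-- A good configuration with given squares. -/
theorem exists_good (K : Finset (ℤ × ℤ)) (σ : Cfg) : ∃ κ : Cfg, Good κ ∧ ∀ v ∈ K, κ v = σ v := by
  classical
  refine ⟨cf K eta0 (K.filter fun v => σ v = true), f_good.1 _ _ _ f_good.2.1, fun v hv => ?_⟩
  rw [cf_in hv]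
  cases h : σ v <;> simp [hv, h]

theorem ka_le' (hb : bc.Ok l Q) {t : ℕ} (ht : t < n) : bc.ka l n t ≤ l * n := by
  refine H825.Q.Bc.ka_le ?_ ht
  rcases bc with _ | _ | ⟨ia, ta⟩
  · trivial
  · trivial
  · exact ⟨hb.1, hb.2.1, hb.2.2.1, hb.2.2.2.1⟩

variable {δ g M e κ₀ B₀ α C : ℝ}

/-- Second moments of the functional of the domain. -/
def HM (θ β : ℝ) (p : ZMod l → ℤ × ℤ) (S₀ : Finset (ℤ × ℤ)) (Q : Marks) (bc : Bc) (n : ℕ)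
    (κ₀ B₀ M : ℝ) : Prop :=
  ∀ η : Cfg, Dob η (enl S₀ n) (qN p n (tB n Q)) (bc.ka l n (tB n Q)) →
  ∀ c : Ed → ℝ, (Function.support c).Finite → FlowIn (enl S₀ n) κ₀ B₀ n c →
  Ex (2 * Real.cos θ) (enl S₀ n) η (fun ω =>
    XB θ β (qN p n (tB n Q)) (enl S₀ n) (bc.ka l n (tB n Q)) (dv c) ω ^ 2) ≤ M

/-- **The closed frame, on the domain.** -/
theorem clD (h0 : 0 < θ) (h1 : θ ≤ Real.pi / 3) (hβ : Real.cos (θ / 2 + β) = Real.sin θ)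
    (harm : ArmDec (2 * Real.cos θ) α C) (hC0 : 0 ≤ C) (hp : IsPolygon p) (hD : Encloses p S₀)
    (hQ : Q.Ok) (hb : bc.Ok l Q) (hg : Gap Q l g) (hbg : BGap l Q g bc) (hδ : 0 < δ)
    (hδg : 4 * δ ≤ g) (hn : 16 ≤ δ * n) {R' : ℤ} (hR3 : (⌊δ * n⌋₊ : ℤ) + 4 ≤ R₃)
    (h34 : R₃ + 4 ≤ R₄) (h4 : R₄ ≤ R') (hR4g : (2 * R₄ : ℝ) + 4 < g * n)
    (hR4 : (R₄ : ℝ) + 2 ≤ κ₀ * n) (hA : HA θ β p Q bc n ⌊δ * n⌋₊)
    (hC : HC θ β p S₀ Q bc n ⌊δ * n⌋₊ R₃ R') (hM : 1 ≤ M) (hm : HM θ β p S₀ Q bc n κ₀ B₀ M)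
    (he : (univ : Finset (Fin l × Fin (Q.m + 1))).card *
      (C * (((R₃ + 1 : ℤ) : ℝ) / ((R₄ - 1 : ℤ) : ℝ)) ^ α) ≤ e) (he2 : e ≤ 1 / 2)
    {σ : Cfg} (hσ : Frz (frows θ β p Q n ⌊δ * n⌋₊ bc) σ) {c : Ed → ℝ}
    (hcf : (Function.support c).Finite) (hfl : FlowIn (enl S₀ n) κ₀ B₀ n c) (hω : Good ω)
    (hk : ∀ v ∈ frmQ p Q n ⌊δ * n⌋₊ ∪ clH p Q n ⌊δ * n⌋₊ S₀,
      ω v = clS p Q n ⌊δ * n⌋₊ bc σ v) :
    0 ≤ Ex (2 * Real.cos θ) (enl S₀ n) ω (Gf θ β p S₀ Q bc n ⌊δ * n⌋₊ 0 R₃ R₄) ∧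
    |Ex (2 * Real.cos θ) (enl S₀ n) ω (Gf θ β p S₀ Q bc n ⌊δ * n⌋₊ c R₃ R₄) -
      VT θ β p S₀ n (tB n Q) (bc.ka l n (tB n Q)) (dv c) *
        Ex (2 * Real.cos θ) (enl S₀ n) ω (Gf θ β p S₀ Q bc n ⌊δ * n⌋₊ 0 R₃ R₄)| ≤
      er M e * Ex (2 * Real.cos θ) (enl S₀ n) ω (Gf θ β p S₀ Q bc n ⌊δ * n⌋₊ 0 R₃ R₄) ∧
    Ex (2 * Real.cos θ) (enl S₀ n) ω (fun ω => |Gf θ β p S₀ Q bc n ⌊δ * n⌋₊ c R₃ R₄ ω|) ≤
      (M + er M e) *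
        Ex (2 * Real.cos θ) (enl S₀ n) ω (Gf θ β p S₀ Q bc n ⌊δ * n⌋₊ 0 R₃ R₄) ∧
    |VT θ β p S₀ n (tB n Q) (bc.ka l n (tB n Q)) (dv c)| ≤ M := by
  classical
  have hs : 0 < Real.sin θ := Real.sin_pos_of_pos_of_lt_pi h0 (by linarith [Real.pi_pos])
  have hq1 : 1 ≤ 2 * Real.cos θ := H680.T.cos_le h0 h1
  have hcos : 0 < Real.cos θ := by linarith
  have hl : 0 < l := by have := hp.1; omega
  obtain ⟨b1, b2, b3, b4, b5⟩ := gn_big hQ hg hδg hn hl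
  have ht := tB_lt (n := n) hQ b5
  have hka := ka_le' (Q := Q) hb ht
  have hdob : ∀ η : Cfg, Good η → (∀ v ∈ frmQ p Q n ⌊δ * n⌋₊ ∪ clH p Q n ⌊δ * n⌋₊ S₀,
      η v = clS p Q n ⌊δ * n⌋₊ bc σ v) →
      Dob η (enl S₀ n) (qN p n (tB n Q)) (bc.ka l n (tB n Q)) :=
    fun η hη h => dob_cl hp hD hQ hg hδ hδg hn hσ hb hbg hη h
  have hcov : ∀ v ∉ enl S₀ n, ∀ w ∈ enl S₀ n, Tch v w →
      v ∈ frmQ p Q n ⌊δ * n⌋₊ ∪ clH p Q n ⌊δ * n⌋₊ S₀ := by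
    intro v hv w hw hvw
    obtain ⟨z, hz, r, hr⟩ := touch hw hvw
    exact cl_cov hp hD hQ hg hδg hn hv hz hr
  have hcol : ∀ i ∈ (univ : Finset (Fin l × Fin (Q.m + 1))),
      ∀ v ∈ frmQ p Q n ⌊δ * n⌋₊ ∪ clH p Q n ⌊δ * n⌋₊ S₀, v ∈ Bq (hsite p Q n i) (R₄ - 1) →
      clS p Q n ⌊δ * n⌋₊ bc σ v = bcol p Q bc n i := by
    intro i _ v hv hi
    exact cl_box hp hD hQ hg hδ hδg hn hσ hb hbg (R := R₄ - 1) (by push_cast; linarith) i hv hi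
      (by omega)
  have hR0 : 1 ≤ R₃ + 1 := by omega
  have hRR : R₃ + 1 < R₄ - 1 := by omega
  have hRp : (0 : ℝ) < ((R₃ + 1 : ℤ) : ℝ) := by exact_mod_cast hR0
  have hRp' : (0 : ℝ) < ((R₄ - 1 : ℤ) : ℝ) := by
    have : 0 < R₄ - 1 := by omega
    exact_mod_cast this
  have he0 : 0 ≤ e := le_trans (by positivity) he
  -- the functional
  set X : Cfg → ℝ := XB θ β (qN p n (tB n Q)) (enl S₀ n) (bc.ka l n (tB n Q)) (dv c) with hX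
  have hXl : Loc (enl S₀ n) X := loc_XB _ _ _ _ _
  have hX2 : Ex (2 * Real.cos θ) (enl S₀ n) ω (fun ω => X ω ^ 2) ≤ M :=
    hm ω (hdob ω hω hk) c hcf hfl
  have hXa2 : Ex (2 * Real.cos θ) (enl S₀ n) ω (fun ω => (fun ω => |X ω|) ω ^ 2) ≤ M := by
    simp only [sq_abs]
    exact hX2
  have k1 := H601.Q.cls (2 * Real.cos θ) α C hq1 hC0 harm (l * n) (enl S₀ n)
    (frmQ p Q n ⌊δ * n⌋₊ ∪ clH p Q n ⌊δ * n⌋₊ S₀) (clS p Q n ⌊δ * n⌋₊ bc σ)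
    (qN p n (tB n Q)) (bc.ka l n (tB n Q)) (isPolygon_qN b5 hp _) (encloses_qN b5 hp hD _) hka
    hdob hcov (Fin l × Fin (Q.m + 1)) univ (hsite p Q n) (bcol p Q bc n) (R₃ + 1) (R₄ - 1) hR0 hRR
    hcol e he he2 ω hω hk
  have k2 := k1 X hXl M hX2
  have k3 := k1 (fun ω => |X ω|) (fun ω ω' h => by simp only [hXl ω ω' h]) M hXa2
  have hV : VT θ β p S₀ n (tB n Q) (bc.ka l n (tB n Q)) (dv c) =
      Ex (2 * Real.cos θ) (enl S₀ n) ω X :=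
    VT_eq b5 hp hD hs hcos hβ hka (hdob ω hω hk) _
  have hDK : Disjoint (enl S₀ n) (uI (frows θ β p Q n ⌊δ * n⌋₊ bc)) := by
    rw [uI_frows]
    exact frmQ_disj hp hD hQ hg hδ hδg hn
  have hfω : Frz (frows θ β p Q n ⌊δ * n⌋₊ bc) ω := by
    intro x v hv
    have h3 : v ∈ frmQ p Q n ⌊δ * n⌋₊ := by
      rw [← uI_frows (θ := θ) (β := β) (bc := bc), mem_uI]
      exact ⟨x, hv⟩
    rw [hk v (mem_union_left _ h3), clS_frm h3]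
    exact hσ x v hv
  obtain ⟨T, hT, hT'⟩ := TN_const hA hC hR3 (by omega) h4 hDK hω hfω
  have hgS : ∀ S, S ⊆ enl S₀ n → Good (cf (enl S₀ n) ω S) := fun S hS => f_good.1 _ ω S hω
  have h := onD (A := NAh p Q bc n (R₃ + 1) (R₄ - 1)) (X := X)
    (G0 := Gf θ β p S₀ Q bc n ⌊δ * n⌋₊ 0 R₃ R₄) (GC := Gf θ β p S₀ Q bc n ⌊δ * n⌋₊ c R₃ R₄)
    (by linarith : 0 < 2 * Real.cos θ) hT hM he0
    (fun S hS => by rw [Gf_0 hp hD b5 (hgS S hS) hs.ne' hcos.ne' hβ, hT' S hS])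
    (fun S hS => by
      rw [Gf_c hp hD hQ b5 hfl (by omega) hR4 (le_trans (by
        have : (1 : ℤ) ≤ R₄ := by omega
        have : (1 : ℝ) ≤ R₄ := by exact_mod_cast this
        linarith) hR4) (hgS S hS) hs.ne' hcos.ne' hβ, hT' S hS])
    hX2 k2 k3
  rw [hV]
  exact h

end Vale.Agent.P167.H662.S6
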