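import Vale.Agent.P167.H662.S6.D

/-!
# P167, general `q`, block Q-START, H6S: the frame with holes of one size, the expectations
-/

namespace Vale.Agent.P167.H662.S6

open Finset MeasureTheory
open Vale.Agent.P167.FK
open Vale.Agent.P167.FKA (Loc Ind ArmDec cf_out)
open Vale.Agent.P167.E6 (IsPolygon Encloses face)
open Vale.Agent.P167.XDL (bS mem_bS)
open Vale.Agent.P167.H718 (Dob)
open Vale.Agent.P167.H825 (dv enl Marks FlowIn)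
open Vale.Agent.P167.H825.Q (Row Bc VT VT_eq)
open Vale.Agent.P167.H680.T (rowC uI frows mem_uI)
open Vale.Agent.P167.H199 (Gap)
open Vale.Agent.P167.H662 (hsite)
open Vale.Agent.P167.H519 (IsLim cf_in)
open Vale.Agent.P167.QX (QL XB XBoff loc_XB)
open Vale.Agent.P167.Enl (tB qN tB_lt frmQ isPolygon_qN encloses_qN uI_frows box_disj
  clH clS clH_sub clH_disj frmQ_disj clS_frm cl_cov dob_cl cl_box BGap gn_big wc)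
open Vale.Agent.P167.H506.Q (EF EF_mono EF_nonneg)
open Vale.Agent.P167.H398.Q

variable {l : ℕ} {p : ZMod l → ℤ × ℤ} {S₀ : Finset (ℤ × ℤ)} {Q : Marks} {bc : Bc} {n : ℕ}
  {θ β : ℝ} {c : Ed → ℝ} {R₃ R₄ : ℤ} {ω ω' κ : Cfg} {P : Measure Cfg} {K : Finset (ℤ × ℤ)}
  {q δ g M e κ₀ B₀ α C η : ℝ}

theorem EF_abs_eq [IsFiniteMeasure P] (hg : ∀ᵐ ω ∂P, Good ω) {F : Cfg → ℝ} (hF : CB F)
    (h : ∀ ω, Good ω → (∀ v ∈ K, ω v = κ v) → 0 ≤ F ω) :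
    EF P K κ (fun ω => |F ω|) = EF P K κ F := by
  have hF' := hF.abs
  obtain ⟨h1, M, hM⟩ := hF
  obtain ⟨h2, M', hM'⟩ := hF'
  refine le_antisymm (EF_mono hg h2 h1 hM' hM fun ω h3 h4 => ?_)
    (EF_mono hg h1 h2 hM hM' fun ω _ _ => le_abs_self _)
  rw [abs_of_nonneg (h ω h3 h4)]

theorem abs_Gg (F : Cfg → ℝ) : (fun ω => |Gg F ω|) = Gg fun ω => |F ω| := by
  funext ω
  unfold Gg
  split_ifs
  · rfl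
  · simp

theorem EF_gg_abs (hg : ∀ᵐ ω ∂P, Good ω) (F : Cfg → ℝ) :
    EF P K κ (fun ω => |Gg F ω|) = EF P K κ (fun ω => |F ω|) := by
  rw [abs_Gg, EF_gg hg]

/-- The squares of the holes. -/
theorem hH (d : ℕ) : clH p Q n d S₀ ⊆
    (univ : Finset (Fin l × Fin (Q.m + 1))).biUnion fun i => Bq (hsite p Q n i) ((d : ℤ) + 4) :=
  clH_sub

/-- **Closing the holes of the frame.** -/
theorem clE (hq : 1 ≤ q) (hP : IsLim q P) (hgd : ∀ᵐ ω ∂P, Good ω)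
    (harm : ArmDec q α C) (hC0 : 0 ≤ C) (hp : IsPolygon p) (hD : Encloses p S₀)
    (hQ : Q.Ok) (hb : bc.Ok l Q) (hg : Gap Q l g) (hbg : BGap l Q g bc) (hδ : 0 < δ)
    (hδg : 4 * δ ≤ g) (hn : 16 ≤ δ * n) (hR3 : (⌊δ * n⌋₊ : ℤ) + 4 ≤ R₃)
    (hR3g : (2 * R₃ : ℝ) + 4 < g * n)
    (hη : 8 * (univ : Finset (Fin l × Fin (Q.m + 1))).card *
      (C * ((((⌊δ * n⌋₊ : ℤ) + 4 : ℤ) : ℝ) / (R₃ : ℝ)) ^ α) ≤ η) (hη1 : η ≤ 1)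
    (hη2 : C * ((((⌊δ * n⌋₊ : ℤ) + 4 : ℤ) : ℝ) / (R₃ : ℝ)) ^ α < 1)
    {σ : Cfg} (hσ : Frz (frows θ β p Q n ⌊δ * n⌋₊ bc) σ) (hκ : Good κ)
    (hκσ : ∀ v ∈ frmQ p Q n ⌊δ * n⌋₊, κ v = σ v) {F : Cfg → ℝ} (hF : CB F)
    (hFi : Ind (hB p Q n R₃ \ frmQ p Q n ⌊δ * n⌋₊) (Gg F)) :
    |EF P (frmQ p Q n ⌊δ * n⌋₊) κ F -
        EF P (frmQ p Q n ⌊δ * n⌋₊ ∪ clH p Q n ⌊δ * n⌋₊ S₀) (clS p Q n ⌊δ * n⌋₊ bc σ) F| ≤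
      η * EF P (frmQ p Q n ⌊δ * n⌋₊ ∪ clH p Q n ⌊δ * n⌋₊ S₀) (clS p Q n ⌊δ * n⌋₊ bc σ)
        (fun ω => |F ω|) ∧
    EF P (frmQ p Q n ⌊δ * n⌋₊ ∪ clH p Q n ⌊δ * n⌋₊ S₀) (clS p Q n ⌊δ * n⌋₊ bc σ)
        (fun ω => |F ω|) ≤ (1 + η) * EF P (frmQ p Q n ⌊δ * n⌋₊) κ (fun ω => |F ω|) ∧
    EF P (frmQ p Q n ⌊δ * n⌋₊) κ (fun ω => |F ω|) ≤
      (1 + η) * EF P (frmQ p Q n ⌊δ * n⌋₊ ∪ clH p Q n ⌊δ * n⌋₊ S₀)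
        (clS p Q n ⌊δ * n⌋₊ bc σ) (fun ω => |F ω|) := by
  classical
  have hr : 1 ≤ (⌊δ * n⌋₊ : ℤ) + 4 := by omega
  have hdis : ∀ i ∈ (univ : Finset (Fin l × Fin (Q.m + 1))),
      ∀ j ∈ (univ : Finset (Fin l × Fin (Q.m + 1))), i ≠ j →
      Disjoint (Bq (hsite p Q n i) R₃) (Bq (hsite p Q n j) R₃) :=
    fun i _ j _ hij => box_disj hp hQ hg (n := n) (by linarith) hij
  have hs : ∀ v ∈ frmQ p Q n ⌊δ * n⌋₊, clS p Q n ⌊δ * n⌋₊ bc σ v = κ v :=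
    fun v hv => by rw [clS_frm hv, hκσ v hv]
  have hcol : ∀ i ∈ (univ : Finset (Fin l × Fin (Q.m + 1))), ∃ b : Bool,
      ∀ v ∈ frmQ p Q n ⌊δ * n⌋₊, v ∈ Bq (hsite p Q n i) R₃ → κ v = b :=
    fun i _ => ⟨wc l n Q bc i, fun v hv hi => by
      rw [← hs v hv]
      exact cl_box hp hD hQ hg hδ hδg hn hσ hb hbg hR3g i (mem_union_left _ hv) hi hR3⟩
  have cG : CB (Gg F) := cb_Gg hF
  have cGa : CB (fun ω => |Gg F ω|) := cG.abs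
  have iG : Ind ((univ.biUnion fun i : Fin l × Fin (Q.m + 1) => Bq (hsite p Q n i) R₃) \
      frmQ p Q n ⌊δ * n⌋₊) (Gg F) := hFi
  have iGa : Ind ((univ.biUnion fun i : Fin l × Fin (Q.m + 1) => Bq (hsite p Q n i) R₃) \
      frmQ p Q n ⌊δ * n⌋₊) (fun ω => |Gg F ω|) := fun ω ω' h => by simp only [hFi ω ω' h]
  have k1 := close_abs hq hκ harm hr hR3 hdis hcol hC0 hη2 (hη.trans hη1) hP hgd
    (hH (S₀ := S₀) ⌊δ * n⌋₊) hs cG iG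
  have k2 := close_le hq hκ harm hr hR3 hdis hcol hC0 hη2 (hη.trans hη1) hP hgd
    (hH (S₀ := S₀) ⌊δ * n⌋₊) hs (fun ω => abs_nonneg _) cGa iGa
  rw [EF_gg hgd, EF_gg hgd, EF_gg_abs hgd] at k1
  rw [EF_gg_abs hgd, EF_gg_abs hgd] at k2
  have n1 : 0 ≤ EF P (frmQ p Q n ⌊δ * n⌋₊ ∪ clH p Q n ⌊δ * n⌋₊ S₀) (clS p Q n ⌊δ * n⌋₊ bc σ)
      (fun ω => |F ω|) := EF_nonneg fun ω => abs_nonneg _
  have n2 : 0 ≤ EF P (frmQ p Q n ⌊δ * n⌋₊) κ (fun ω => |F ω|) := EF_nonneg fun ω => abs_nonneg _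
  refine ⟨k1.trans (mul_le_mul_of_nonneg_right hη n1), k2.1.trans ?_, k2.2.trans ?_⟩
  · exact mul_le_mul_of_nonneg_right (by linarith) n2
  · exact mul_le_mul_of_nonneg_right (by linarith) n1

/-- **The frame with holes of one size.** -/
theorem h6n (h0 : 0 < θ) (h1 : θ ≤ Real.pi / 3) (hβ : Real.cos (θ / 2 + β) = Real.sin θ)
    (hP : IsLim (2 * Real.cos θ) P) (hgd : ∀ᵐ ω ∂P, Good ω)
    (harm : ArmDec (2 * Real.cos θ) α C) (hC0 : 0 ≤ C) (hp : IsPolygon p) (hD : Encloses p S₀)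
    (hQ : Q.Ok) (hb : bc.Ok l Q) (hg : Gap Q l g) (hbg : BGap l Q g bc) (hδ : 0 < δ)
    (hδg : 4 * δ ≤ g) (hn : 16 ≤ δ * n) {R' : ℤ} (hR3 : (⌊δ * n⌋₊ : ℤ) + 4 ≤ R₃)
    (h34 : R₃ + 4 ≤ R₄) (h4 : R₄ ≤ R') (hR4g : (2 * R₄ : ℝ) + 4 < g * n)
    (hR4 : (R₄ : ℝ) + 2 ≤ κ₀ * n) (hA : HA θ β p Q bc n ⌊δ * n⌋₊)
    (hC : HC θ β p S₀ Q bc n ⌊δ * n⌋₊ R₃ R') (hM : 1 ≤ M) (hm : HM θ β p S₀ Q bc n κ₀ B₀ M)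
    (he : (univ : Finset (Fin l × Fin (Q.m + 1))).card *
      (C * (((R₃ + 1 : ℤ) : ℝ) / ((R₄ - 1 : ℤ) : ℝ)) ^ α) ≤ e) (he2 : e ≤ 1 / 2)
    (hη : 8 * (univ : Finset (Fin l × Fin (Q.m + 1))).card *
      (C * ((((⌊δ * n⌋₊ : ℤ) + 4 : ℤ) : ℝ) / (R₃ : ℝ)) ^ α) ≤ η) (hη1 : η ≤ 1)
    (hη2 : C * ((((⌊δ * n⌋₊ : ℤ) + 4 : ℤ) : ℝ) / (R₃ : ℝ)) ^ α < 1)
    {σ : Cfg} (hσ : Frz (frows θ β p Q n ⌊δ * n⌋₊ bc) σ) {c : Ed → ℝ}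
    (hcf : (Function.support c).Finite) (hfl : FlowIn (enl S₀ n) κ₀ B₀ n c) :
    0 ≤ EF P (uI (frows θ β p Q n ⌊δ * n⌋₊ bc)) σ
      (Gf θ β p S₀ Q bc n ⌊δ * n⌋₊ 0 R₃ R₄) ∧
    |EF P (uI (frows θ β p Q n ⌊δ * n⌋₊ bc)) σ (Gf θ β p S₀ Q bc n ⌊δ * n⌋₊ c R₃ R₄) -
        VT θ β p S₀ n (tB n Q) (bc.ka l n (tB n Q)) (dv c) *
          EF P (uI (frows θ β p Q n ⌊δ * n⌋₊ bc)) σ
            (Gf θ β p S₀ Q bc n ⌊δ * n⌋₊ 0 R₃ R₄)| ≤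
      ((2 * η * (M + er M e) + er M e) * (1 + η)) *
        EF P (uI (frows θ β p Q n ⌊δ * n⌋₊ bc)) σ (Gf θ β p S₀ Q bc n ⌊δ * n⌋₊ 0 R₃ R₄) ∧
    EF P (uI (frows θ β p Q n ⌊δ * n⌋₊ bc)) σ
        (fun ω => |Gf θ β p S₀ Q bc n ⌊δ * n⌋₊ c R₃ R₄ ω|) ≤
      (1 + η) ^ 2 * (M + er M e) *
        EF P (uI (frows θ β p Q n ⌊δ * n⌋₊ bc)) σ (Gf θ β p S₀ Q bc n ⌊δ * n⌋₊ 0 R₃ R₄) ∧
    |VT θ β p S₀ n (tB n Q) (bc.ka l n (tB n Q)) (dv c)| ≤ M := by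
  classical
  have hPp : IsProbabilityMeasure P := hP.1
  have hs : 0 < Real.sin θ := Real.sin_pos_of_pos_of_lt_pi h0 (by linarith [Real.pi_pos])
  have hq1 : 1 ≤ 2 * Real.cos θ := H680.T.cos_le h0 h1
  have hcos : 0 < Real.cos θ := by linarith
  have hl : 0 < l := by have := hp.1; omega
  obtain ⟨b1, b2, b3, b4, b5⟩ := gn_big hQ hg hδg hn hl
  have hR34 : (R₃ : ℝ) + 4 ≤ R₄ := by exact_mod_cast h34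
  obtain ⟨κ, hκ, hκσ⟩ := exists_good (frmQ p Q n ⌊δ * n⌋₊) σ
  have hRp : (0 : ℝ) < ((R₃ + 1 : ℤ) : ℝ) := by
    have : 0 < R₃ + 1 := by omega
    exact_mod_cast this
  have hRp' : (0 : ℝ) < ((R₄ - 1 : ℤ) : ℝ) := by
    have : 0 < R₄ - 1 := by omega
    exact_mod_cast this
  have hRp3 : (0 : ℝ) < (R₃ : ℝ) := by
    have : 0 < R₃ := by omega
    exact_mod_cast this
  have hdp : (0 : ℝ) < (((⌊δ * n⌋₊ : ℤ) + 4 : ℤ) : ℝ) := by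
    have : 0 < (⌊δ * n⌋₊ : ℤ) + 4 := by omega
    exact_mod_cast this
  have he0 : 0 ≤ e := le_trans (by positivity) he
  have hη0 : 0 ≤ η := le_trans (by positivity) hη
  rw [uI_frows]
  have eσ : ∀ F : Cfg → ℝ, EF P (frmQ p Q n ⌊δ * n⌋₊) σ F = EF P (frmQ p Q n ⌊δ * n⌋₊) κ F :=
    fun F => EF_cfg (fun v hv => (hκσ v hv).symm) F
  rw [eσ, eσ, eσ]
  -- the functionals
  have c0 : CB (Gf θ β p S₀ Q bc n ⌊δ * n⌋₊ 0 R₃ R₄) := cb_Gf h0 h1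
  have cc : CB (Gf θ β p S₀ Q bc n ⌊δ * n⌋₊ c R₃ R₄) := cb_Gf h0 h1
  have hdis4 : ∀ x y : Fin l × Fin (Q.m + 1), x ≠ y →
      Disjoint (Bq (hsite p Q n x) R₄) (Bq (hsite p Q n y) R₄) :=
    fun x y hxy => box_disj hp hQ hg (n := n) (by linarith) hxy
  have i0 : ∀ c' : Ed → ℝ, Ind (hB p Q n R₃ \ frmQ p Q n ⌊δ * n⌋₊)
      (Gg (Gf θ β p S₀ Q bc n ⌊δ * n⌋₊ c' R₃ R₄)) :=
    fun c' => Gf_ind (by omega) hdis4 sdiff_subset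
  obtain ⟨j1, j2, j3⟩ := clE hq1 hP hgd harm hC0 hp hD hQ hb hg hbg hδ hδg hn hR3
    (by linarith) hη hη1 hη2 hσ hκ hκσ c0 (i0 0) (θ := θ) (β := β)
  obtain ⟨m1, m2, m3⟩ := clE hq1 hP hgd harm hC0 hp hD hQ hb hg hbg hδ hδg hn hR3
    (by linarith) hη hη1 hη2 hσ hκ hκσ cc (i0 c) (θ := θ) (β := β)
  -- nonnegative
  have hfr : ∀ ω : Cfg, (∀ v ∈ frmQ p Q n ⌊δ * n⌋₊, ω v = σ v) →
      Frz (frows θ β p Q n ⌊δ * n⌋₊ bc) ω := by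
    intro ω h x v hv
    have h3 : v ∈ frmQ p Q n ⌊δ * n⌋₊ := by
      rw [← uI_frows (θ := θ) (β := β) (bc := bc), mem_uI]
      exact ⟨x, hv⟩
    rw [h v h3]
    exact hσ x v hv
  have p0 : ∀ ω, Good ω → (∀ v ∈ frmQ p Q n ⌊δ * n⌋₊, ω v = σ v) →
      0 ≤ Gf θ β p S₀ Q bc n ⌊δ * n⌋₊ 0 R₃ R₄ ω := by
    intro ω hω h
    rw [Gf_0 hp hD b5 hω hs.ne' hcos.ne' hβ]
    exact TN_nonneg hA hR3 hω (hfr ω h)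
  have a1 := EF_abs_eq (K := frmQ p Q n ⌊δ * n⌋₊) (κ := κ) hgd c0 fun ω h3 h4 =>
    p0 ω h3 fun v hv => by rw [h4 v hv, hκσ v hv]
  have a2 := EF_abs_eq (K := frmQ p Q n ⌊δ * n⌋₊ ∪ clH p Q n ⌊δ * n⌋₊ S₀)
    (κ := clS p Q n ⌊δ * n⌋₊ bc σ) hgd c0 fun ω h3 h4 =>
    p0 ω h3 fun v hv => by rw [h4 v (mem_union_left _ hv), clS_frm hv]
  rw [a1, a2] at j2
  rw [a2] at j1
  have hDK : Disjoint (enl S₀ n) (frmQ p Q n ⌊δ * n⌋₊ ∪ clH p Q n ⌊δ * n⌋₊ S₀) := by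
    rw [Finset.disjoint_union_right]
    exact ⟨frmQ_disj hp hD hQ hg hδ hδg hn, clH_disj.symm⟩
  have hcl := fun (ω : Cfg) (hω : Good ω) (hk : ∀ v ∈ frmQ p Q n ⌊δ * n⌋₊ ∪
      clH p Q n ⌊δ * n⌋₊ S₀, ω v = clS p Q n ⌊δ * n⌋₊ bc σ v) =>
    clD h0 h1 hβ harm hC0 hp hD hQ hb hg hbg hδ hδg hn hR3 h34 h4 hR4g hR4 hA hC hM hm he he2 hσ
      hcf hfl hω hk
  obtain ⟨k1, k2, k3⟩ := onE2 hq1 hP hgd hDK c0 cc fun ω hω hk =>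
    ⟨(hcl ω hω hk).1, (hcl ω hω hk).2.1, (hcl ω hω hk).2.2.1⟩
  obtain ⟨κ', hκ', hκσ'⟩ := exists_good (frmQ p Q n ⌊δ * n⌋₊ ∪ clH p Q n ⌊δ * n⌋₊ S₀)
    (clS p Q n ⌊δ * n⌋₊ bc σ)
  have hV := (hcl κ' hκ' hκσ').2.2.2
  have her := er_nonneg (M := M) (e := e) (by linarith) he0
  obtain ⟨r1, r2⟩ := onE1 (M' := M + er M e) (ε₁ := er M e) hη0 (by linarith) her m1 j1 m3 j2 k2 k3
    (hV.trans (by linarith))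
  refine ⟨?_, r1, r2, hV⟩
  rw [← a1]
  exact EF_nonneg fun ω => abs_nonneg _

end Vale.Agent.P167.H662.S6
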