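import Vale.Agent.P167.H662.S6.E

/-!
# P167, general `q`, block Q-START: the closed frame, `H6S`

`h6s`: `H6S θ β P` from `L2S θ β` and `M2F θ β`.
-/

namespace Vale.Agent.P167.H662.S6

open Finset MeasureTheory Filter
open Vale.Agent.P167.FK
open Vale.Agent.P167.FKA (Loc Ind ArmDec cf_out)
open Vale.Agent.P167.E6 (IsPolygon Encloses face)
open Vale.Agent.P167.H825 (dv enl Marks FlowIn)
open Vale.Agent.P167.H825.Q (Row Bc VT VT_eq)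
open Vale.Agent.P167.H680.T (rowC uI frows mem_uI)
open Vale.Agent.P167.H199 (Gap exists_Gap)
open Vale.Agent.P167.H662 (hsite)
open Vale.Agent.P167.H519 (IsLim cf_in)
open Vale.Agent.P167.Enl (tB qN tB_lt frmQ uI_frows BGap exists_BGap)
open Vale.Agent.P167.H506.Q (EF EF_mono EF_nonneg)
open Vale.Agent.P167.H398.Q

variable {l : ℕ} {p : ZMod l → ℤ × ℤ} {S₀ : Finset (ℤ × ℤ)} {Q : Marks} {bc : Bc} {n d : ℕ}
  {θ β : ℝ} {R₃ R₄ : ℤ} {P : Measure Cfg} {α C : ℝ}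

theorem rpow_small (hα : 0 < α) {a ε : ℝ} (ha : 0 ≤ a) (hε : 0 < ε) :
    ∃ t : ℝ, 0 < t ∧ t < 1 ∧ ∀ s : ℝ, 0 ≤ s → s ≤ t → a * s ^ α ≤ ε := by
  have h1 : 0 < ε / (a + 1) := by positivity
  refine ⟨min (1 / 2) ((ε / (a + 1)) ^ (1 / α)), lt_min (by norm_num) (Real.rpow_pos_of_pos h1 _),
    (min_le_left _ _).trans_lt (by norm_num), fun s hs hst => ?_⟩
  have h2 : s ^ α ≤ ε / (a + 1) := by
    have h3 := Real.rpow_le_rpow hs (hst.trans (min_le_right _ _)) hα.le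
    rwa [← Real.rpow_mul h1.le, one_div_mul_cancel hα.ne', Real.rpow_one] at h3
  calc a * s ^ α ≤ (a + 1) * s ^ α :=
        mul_le_mul_of_nonneg_right (by linarith) (Real.rpow_nonneg hs _)
    _ ≤ (a + 1) * (ε / (a + 1)) := mul_le_mul_of_nonneg_left h2 (by linarith)
    _ = ε := by field_simp

/-- The error is small. -/
theorem er_le {M e ε : ℝ} (hM : 1 ≤ M) (hε : 0 < ε) (hε1 : ε ≤ 1)
    (h : e ≤ ε ^ 2 / (64 * M)) : er M e ≤ ε := by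
  have hM0 : 0 < M := by linarith
  have h1 : M * e ≤ ε ^ 2 / 64 := by
    have := mul_le_mul_of_nonneg_left h hM0.le
    calc M * e ≤ M * (ε ^ 2 / (64 * M)) := this
      _ = ε ^ 2 / 64 := by field_simp
  have h2 : Real.sqrt (M * e) ≤ ε / 8 := by
    rw [Real.sqrt_le_left (by positivity)]
    calc M * e ≤ ε ^ 2 / 64 := h1
      _ = (ε / 8) ^ 2 := by ring
  unfold er
  nlinarith

theorem h6n0 (h0 : 0 < θ) (h1 : θ ≤ Real.pi / 3) (hβ : Real.cos (θ / 2 + β) = Real.sin θ)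
    (hP : IsLim (2 * Real.cos θ) P) (hgd : ∀ᵐ ω ∂P, Good ω) (hp : IsPolygon p)
    (hD : Encloses p S₀) (hn : 0 < n) (hR3 : (d : ℤ) + 4 ≤ R₃) (hA : HA θ β p Q bc n d)
    {σ : Cfg} (hσ : Frz (frows θ β p Q n d bc) σ) :
    0 ≤ EF P (uI (frows θ β p Q n d bc)) σ (Gf θ β p S₀ Q bc n d 0 R₃ R₄) := by
  have hPp : IsProbabilityMeasure P := hP.1
  have hs : 0 < Real.sin θ := Real.sin_pos_of_pos_of_lt_pi h0 (by linarith [Real.pi_pos])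
  have hq1 : 1 ≤ 2 * Real.cos θ := H680.T.cos_le h0 h1
  have hcos : 0 < Real.cos θ := by linarith
  have c0 : CB (Gf θ β p S₀ Q bc n d 0 R₃ R₄) := cb_Gf h0 h1
  rw [← EF_abs_eq hgd c0 fun ω hω h => ?_]
  · exact EF_nonneg fun ω => abs_nonneg _
  · rw [Gf_0 hp hD hn hω hs.ne' hcos.ne' hβ]
    refine TN_nonneg hA hR3 hω fun x v hv => ?_
    rw [h v (mem_uI.2 ⟨x, hv⟩)]
    exact hσ x v hv

/-- Floors. -/
theorem flo {κ₃ κ₄ κ κL g δ t t₂ : ℝ} (ht : 0 < t) (ht1 : t ≤ 1 / 4) (h3 : 0 < κ₃)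
    (h34 : κ₃ ≤ t * κ₄) (hκ : κ₄ ≤ κ / 2) (hL : κ₄ ≤ κL) (hgg : κ₄ ≤ g / 8) (hδ : 0 < δ)
    (hδ3 : δ ≤ κ₃ / 4) (hδt : δ ≤ t₂ * κ₃ / 4) (n1 : 16 ≤ δ * n) (n4 : 2 / t ≤ κ₄ * n) :
    (⌊δ * (n : ℝ)⌋₊ : ℤ) + 4 ≤ ⌊κ₃ * (n : ℝ)⌋ ∧ ⌊κ₃ * (n : ℝ)⌋ + 4 ≤ ⌊κ₄ * (n : ℝ)⌋ ∧
    ⌊κ₄ * (n : ℝ)⌋ ≤ ⌊κL * (n : ℝ)⌋ ∧ (2 * (⌊κ₄ * (n : ℝ)⌋ : ℝ)) + 4 < g * n ∧
    (⌊κ₄ * (n : ℝ)⌋ : ℝ) + 2 ≤ κ * n ∧
    ((⌊κ₃ * (n : ℝ)⌋ + 1 : ℤ) : ℝ) / ((⌊κ₄ * (n : ℝ)⌋ - 1 : ℤ) : ℝ) ≤ 2 * t ∧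
    (((⌊δ * (n : ℝ)⌋₊ : ℤ) + 4 : ℤ) : ℝ) / (⌊κ₃ * (n : ℝ)⌋ : ℝ) ≤ t₂ := by
  have hn0 : (0 : ℝ) ≤ n := Nat.cast_nonneg n
  have a1 : (⌊δ * (n : ℝ)⌋₊ : ℝ) ≤ δ * n := Nat.floor_le (by linarith)
  have a2 := Int.floor_le (κ₃ * (n : ℝ))
  have a3 := Int.lt_floor_add_one (κ₃ * (n : ℝ))
  have a4 := Int.floor_le (κ₄ * (n : ℝ))
  have a5 := Int.lt_floor_add_one (κ₄ * (n : ℝ))
  have m1 : δ * n ≤ κ₃ / 4 * n := mul_le_mul_of_nonneg_right hδ3 hn0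
  have m2 : κ₃ * n ≤ t * (κ₄ * n) := by
    have := mul_le_mul_of_nonneg_right h34 hn0
    linarith
  have m3 : κ₄ * n ≤ κ / 2 * n := mul_le_mul_of_nonneg_right hκ hn0
  have m4 : κ₄ * n ≤ g / 8 * n := mul_le_mul_of_nonneg_right hgg hn0
  have m5 : 64 ≤ κ₃ * n := by linarith
  have m6 : t * (κ₄ * n) ≤ 1 / 4 * (κ₄ * n) :=
    mul_le_mul_of_nonneg_right ht1 (by
      have : 0 < 2 / t := by positivity
      linarith)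
  have m7 : 2 ≤ t * (κ₄ * n) := by
    have := mul_le_mul_of_nonneg_left n4 ht.le
    rwa [mul_div_cancel₀ _ ht.ne'] at this
  refine ⟨?_, ?_, ?_, ?_, ?_, ?_, ?_⟩
  · have : ((⌊δ * (n : ℝ)⌋₊ : ℤ) : ℝ) + 4 ≤ κ₃ * n := by push_cast; linarith
    refine Int.le_floor.2 ?_
    push_cast at this ⊢
    linarith
  · refine Int.le_floor.2 ?_
    push_cast
    linarith
  · exact Int.floor_le_floor (mul_le_mul_of_nonneg_right hL hn0)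
  · linarith
  · linarith
  · push_cast
    have h5 : (0 : ℝ) < (⌊κ₄ * (n : ℝ)⌋ : ℝ) - 1 := by linarith
    rw [div_le_iff₀ h5]
    nlinarith
  · push_cast
    have h5 : (0 : ℝ) < (⌊κ₃ * (n : ℝ)⌋ : ℝ) := by linarith
    rw [div_le_iff₀ h5]
    have h6 : δ * n ≤ t₂ * κ₃ / 4 * n := mul_le_mul_of_nonneg_right hδt hn0
    have h7 : 0 < t₂ := by
      have : 0 < t₂ * κ₃ := by linarith
      exact (pos_iff_pos_of_mul_pos this).2 h3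
    have h8 : t₂ * (κ₃ * n / 2) ≤ t₂ * (⌊κ₃ * (n : ℝ)⌋ : ℝ) :=
      mul_le_mul_of_nonneg_left (by linarith) h7.le
    linarith

end Vale.Agent.P167.H662.S6
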